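import Vale.Agent.P287D.Rl.Sko
import Vale.Agent.P287D.Mm.St

/-!
# P287D, block RL: the row `Mm.REL`
-/

namespace Vale.Agent.P287D.Rl

theorem mm_rel (hR : RES) : Mm.REL := fun n K _ _ hK Λ D Γ N s a b c d _ =>
  rel hR n K hK Λ D Γ N s a b c d

end Vale.Agent.P287D.Rl
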