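import Vale.Agent.P287D.Rl.St
import Vale.Agent.P287D.Pr.Neg
import Vale.Agent.P277Z.Gr.Sat

/-!
# P287D, block RL: relative models from the division theorem
-/

open Set
open Vale.Agent.P297Z.Pl
open scoped Pointwise

noncomputable section

namespace Vale.Agent.P287D.Rl

variable {n : ℕ} {K : Type} [Field K] [Algebra ℂ K] {β : BD K}

/-- a multiple of a rational semiample b-divisor is free -/
theorem smp_rat (h : Smp β) (hq : ∀ P, ∃ q : ℚ, β P = q) :
    ∃ (a : ℕ) (u : Finset K), 0 < a ∧ Nz u ∧ (a : ℝ) • β = mx u := by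
  classical
  obtain ⟨l, l0, rfl⟩ := h
  have pos : ∀ s : l.support, 0 < l s := fun s =>
    (l0 s).lt_of_ne' (Finsupp.mem_support_iff.1 s.2)
  obtain ⟨ε, e0, e1⟩ := P277Z.Gr.exists_pos_le_of_finite_aux _ pos
  obtain ⟨π, p1, p2⟩ := P277Z.Gr.exists_rat_lin (fun s : l.support => l s) e0
  have p3 : ∀ s : l.support, 0 ≤ π (l s) := fun s => by
    have := (abs_lt.1 (p2 s)).1
    exact_mod_cast (by linarith [e1 s] : (0 : ℝ) ≤ π (l s))
  have e : cmb l = ∑ s : l.support, (π (l s) : ℝ) • mx (s : Finset K) := funext fun P => by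
    obtain ⟨q, hq⟩ := hq P
    have k : cmb l P = ∑ s : l.support, (P.mz s : ℚ) • l s := by
      rw [cmb_sum, ← Finset.sum_coe_sort, Finset.sum_apply]
      exact Finset.sum_congr rfl fun s _ => by simp [mx, mul_comm, Rat.smul_def]
    have k1 : π (q : ℝ) = q := by
      rw [show (q : ℝ) = q • (1 : ℝ) by simp [Rat.smul_def], map_smul, p1, smul_eq_mul, mul_one]
    have k2 := congrArg π (hq.symm.trans k)
    rw [k1, map_sum] at k2
    rw [hq, k2, Finset.sum_apply, Rat.cast_sum]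
    exact Finset.sum_congr rfl fun s _ => by simp [mx, mul_comm]
  let a : ℕ := ∏ s : l.support, (π (l s)).den
  have ex : ∀ s : l.support, ∃ m : ℕ, (a : ℝ) * (π (l s) : ℝ) = m := fun s => by
    obtain ⟨c, hc⟩ : (π (l s)).den ∣ a := Finset.dvd_prod_of_mem _ (Finset.mem_univ s)
    refine ⟨c * (π (l s)).num.toNat, ?_⟩
    have := Rat.den_mul_eq_num (π (l s))
    have k : (((π (l s)).num.toNat : ℤ) : ℚ) = (π (l s)).num := by
      rw [Int.toNat_of_nonneg (Rat.num_nonneg.2 (p3 s))]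
    have : (a : ℚ) * π (l s) = (c * (π (l s)).num.toNat : ℕ) := by
      rw [hc, Nat.cast_mul, Nat.cast_mul, mul_comm _ (c : ℚ), mul_assoc, this, ← k, Int.cast_natCast]
    exact_mod_cast this
  choose m hm using ex
  choose w w1 w2 using fun s : l.support => exists_mx_nsmul (s : Finset K) (m s)
  obtain ⟨u, u1, u2⟩ := exists_mx_sum Finset.univ w
  refine ⟨a, u, Finset.prod_pos fun s _ => (π (l s)).den_pos, u1, ?_⟩
  rw [u2, e, Finset.smul_sum]
  exact Finset.sum_congr rfl fun s _ => by rw [w2, smul_smul, hm]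

theorem smp_carQ (h : Smp β) (hq : CarQ β) :
    ∃ (a : ℕ) (u : Finset K), 0 < a ∧ Nz u ∧ (a : ℝ) • β = mx u := smp_rat h hq.rat

/-- **REL** -/
theorem rel_of (hS : SKO) (hR : RES) : REL := by
  classical
  intro n K _ _ hK Λ D Γ N s hΛ bΛ qD dD kΓ bΓ ds nX bX z qN
  by_cases hs : Nz s
  swap
  · rw [mx_of_not hs]
    exact ⟨1, one_pos, by simpa using z.smp, by simpa using z.smp⟩
  obtain ⟨a₁, u₁, a1, -, e1⟩ := smp_carQ z.smp (qD.sub qN)
  obtain ⟨a₂, a2, e2⟩ := qD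
  obtain ⟨u, u1, u2⟩ := exists_mx_nsmul u₁ a₂
  set a : ℝ := (a₂ : ℝ) * a₁ with ha
  have h1 : 1 ≤ a := by rw [ha]; exact_mod_cast Nat.mul_pos a2 a1
  have h0 : 0 < a := one_pos.trans_le h1
  have eu : mx u = a • (D - N) := by rw [u2, ← e1, smul_smul]
  have iD : a • D ∈ CarZ K := by rw [ha, mul_comm, mul_smul]; exact CarZ.nsmul e2 a₁
  set Γ' := -((a - 1) • (D - N) + (D - Γ - ((n : ℝ) + 2) • mx s)) with hΓ'
  have sm := z.smp.smul (sub_nonneg.2 h1)
  have ex : ∀ f ∈ u, ∃ g : K → K, f = ∑ b ∈ s, b * g b ∧ ∀ b, Sec (mx u - mx s) (g b) := by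
    intro f hf
    obtain ⟨g, g1, g2⟩ := hS (n + 1) K hK Γ' s f hs (by rw [hΓ', neg_neg]; exact sm.nef.add nX)
      (by rw [hΓ', neg_neg, add_comm]; exact bX.add_smp sm) fun P =>
      or_iff_not_imp_left.2 fun f0 => by
        have k1 := dv_add_mx_nonneg hf f0 P
        have k2 := kΓ P
        have k3 := z.nn P
        rw [eu] at k1
        simp only [hΓ', dsc, dv, Pi.add_apply, Pi.sub_apply, Pi.smul_apply, Pi.neg_apply,
          Pi.zero_apply, smul_eq_mul] at k1 k2 k3 ⊢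
        push_cast
        linarith
    refine ⟨g, g1, fun b => or_iff_not_imp_left.2 fun g0 => ?_⟩
    have k : 0 ≤ dv (g b) + (a • D - mx s) := by
      refine Pr.hart hR hK hΛ bΛ (Gs.dsc_add hΛ (Gs.dsc_prn hΛ (dv_mem_Prn _))
        (Gs.dsc_sub hΛ (Gs.dsc_smul hΛ a dD) ds)) fun P hP => ?_
      have k1 := (g2 b P).resolve_left g0
      have k2 := bΓ P hP
      have k3 := mul_nonneg (sub_nonneg.2 h1) (z.nn P)
      obtain ⟨j, hj⟩ := CarZ.int (add_mem (dv_mem_CarZ (g b)) (sub_mem iD (mx_mem_CarZ s))) P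
      have k4 : ((-1 : ℤ) : ℝ) < j := by
        rw [← hj]
        simp only [hΓ', dsc, dv, Pi.add_apply, Pi.sub_apply, Pi.smul_apply, Pi.neg_apply,
          Pi.zero_apply, smul_eq_mul] at k1 k2 k3 ⊢
        push_cast at k1 ⊢
        linarith
      rw [hj]
      exact_mod_cast (by have := Int.cast_lt.1 k4; omega : 0 ≤ j)
    intro P
    obtain ⟨c, c1, c2, c3⟩ := P.exists_mz hs
    have k1 : Sec (a • D) (c * g b) := by
      simpa using (sec_of_mem c1).mul (Or.inr k : Sec (a • D - mx s) (g b))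
    have k2 := z.fix _ (by
      simpa [inv_smul_smul₀ h0.ne'] using (k1.rep (mul_ne_zero c2 g0)).smul (inv_pos.2 h0).le) P
    rw [dv_mul c2 g0] at k2
    rw [eu]
    have k3 := mul_le_mul_of_nonneg_left k2 h0.le
    simp only [dv, mx, c3, Pi.add_apply, Pi.sub_apply, Pi.smul_apply, Pi.zero_apply, smul_eq_mul,
      mul_add, mul_inv_cancel_left₀ h0.ne'] at k3 ⊢
    push_cast
    linarith
  choose! g g1 g2 using ex
  set w : Finset K := (u ×ˢ s).image fun p => g p.1 p.2 with hw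
  have sp : ∀ f ∈ u, f ∈ Submodule.span ℂ ((s * w : Finset K) : Set K) := fun f hf => by
    rw [g1 f hf]
    exact sum_mem fun b hb => Submodule.subset_span (Finset.mul_mem_mul hb
      (Finset.mem_image.2 ⟨(f, b), Finset.mem_product.2 ⟨hf, hb⟩, rfl⟩))
  have nw : Nz w := by
    by_contra k
    obtain ⟨f, f1, f2⟩ := u1
    refine f2 ((g1 f f1).trans (Finset.sum_eq_zero fun b hb => mul_eq_zero_of_right _ ?_))
    by_contra k'
    exact k ⟨_, Finset.mem_image.2 ⟨(f, b), Finset.mem_product.2 ⟨f1, hb⟩, rfl⟩, k'⟩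
  have e3 : mx w = mx u - mx s := le_antisymm
    (mx_le nw fun f hf => by
      obtain ⟨p, hp, rfl⟩ := Finset.mem_image.1 hf
      exact g2 _ (Finset.mem_product.1 hp).1 _)
    (by rw [sub_le_iff_le_add', ← mx_mul hs nw]; exact mx_le_of_span u1 sp)
  refine ⟨a⁻¹, inv_pos.2 h0, z.smp.add ((smp_mx s).smul (inv_pos.2 h0).le), Smp.of_smul h0 ?_⟩
  rw [smul_sub, smul_inv_smul₀ h0.ne', ← eu, ← e3]
  exact smp_mx w

end Vale.Agent.P287D.Rl
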