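import Vale.Agent.P287D.I.Df

/-!
# P287D: division by a free linear system on a model
-/

set_option linter.all false

open Set Filter Topology
open Vale.Agent.P297 (Place)
open Vale.Agent.P297Z.Pl
open Vale.Agent.P277Z Vale.Agent.P277Z.FI Vale.Agent.P277Z.F5 Vale.Agent.P277Z.F5.Dg

noncomputable section

namespace Vale.Agent.P287D.Rl

export Vale.Agent.P277Z (Div)

open I hiding Div

variable {n N : ℕ} {K : Type} [Field K] [Algebra ℂ K] {ι : Type} [Fintype ι]

/-- the sections `s i` generate `H` -/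
def Gn (M : Mdl n N K) (H : Div K) (s : ι → K) : Prop :=
  (∀ i, s i ∈ M.H0 H) ∧ ∀ x, ∃ i, s i ≠ 0 ∧ ∀ P, M.On x P → (P.ord (s i) : ℝ) + H P = 0

/-- division on the models of dimension `n` -/
def SKM (n : ℕ) : Prop := ∀ (N : ℕ) (K : Type) [Field K] [Algebra ℂ K] (M : Mdl n N K), Pc M →
  ∀ (ι : Type) [Fintype ι] (s : ι → K) (κ L B H : Div K) (T : Set (Place K)), Lg M κ T → Bd1 T B →
    M.Dv L → IsInt L → M.Dv H → IsInt H → Gn M H s → M.Amp (L - κ - B - (n : ℝ) • H) →
    ∀ f ∈ M.H0 (L + H), ∃ g : ι → K, (∀ i, g i ∈ M.H0 L) ∧ f = ∑ i, s i * g i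

theorem Gn.nef {M : Mdl n N K} (h : Pc M) {H : Div K} {s : ι → K} (hi : IsInt H) (g : Gn M H s) :
    M.Nef H := h.pos.free H hi fun x =>
  let ⟨i, a, b⟩ := g.2 x
  ⟨s i, g.1 i, a, b⟩

theorem skm_zero : SKM 0 := by
  classical
  intro N K _ _ M _ ι _ s κ L B H T _ _ _ _ _ _ hs _ f _
  obtain ⟨y, hy⟩ := M.conn.nonempty
  obtain ⟨i, h0, -⟩ := hs.2 ⟨y, hy⟩
  refine ⟨Pi.single i (f / s i), fun j => Or.inr fun P hP => (CpH.not_pr M P hP).elim, ?_⟩
  rw [Finset.sum_eq_single i (fun j _ hj => by rw [Pi.single_eq_of_ne hj, mul_zero]) (by simp),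
    Pi.single_eq_same, mul_div_cancel₀ _ h0]

section step

variable {M : Mdl (n + 1) N K} {P : Place K}

theorem Gn.res (h : Pc M) (u : SubM M P) (hP : M.Snc {P}) {H : Div K} {s : ι → K} {k : ℤ}
    (hk : H P = k) (g : Gn M H s) :
    (∀ i, s i * u.t ^ k ∈ M.H0 (nr M P u.t H)) ∧ Gn u.S (u.r H) fun i => u.s.res (s i * u.t ^ k) := by
  have lM := h.loc
  have lS := (h.sub u hP).loc
  have t0 : u.t ≠ 0 := fun e => by simpa [e, div_apply lM _ (pr_sub u.s)] using u.ht
  have h1 : ∀ i, s i * u.t ^ k ∈ M.H0 (nr M P u.t H) := fun i => by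
    rw [nr_apply, hk]; exact mul_zpow_mem lM (g.1 i) t0 k
  refine ⟨h1, fun i => u.rst.sec _ (nr_self u.ht H) _ (h1 i), fun y => ?_⟩
  obtain ⟨i, f2, f3⟩ := g.2 (Lift.pt u.s y)
  have h2 : Lift.LG M (Lift.pt u.s y) (-nr M P u.t H) (s i * u.t ^ k) :=
    ⟨mul_ne_zero f2 (zpow_ne_zero _ t0), fun R hR => by
      rw [ord_mul R f2 (zpow_ne_zero _ t0), ord_zpow, nr_apply, hk, Finsupp.neg_apply,
        Finsupp.sub_apply, Finsupp.smul_apply, div_apply lM u.t ⟨_, hR⟩, smul_eq_mul]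
      push_cast
      linarith [f3 R hR]⟩
  have h3 := h2.res lM lS u.rst (by rw [Finsupp.neg_apply, nr_self u.ht, neg_zero])
  refine ⟨i, h3.1, fun Q hQ => ?_⟩
  rw [h3.2 Q hQ, ← map_neg, ← rsn_apply u.rst u.ht, map_neg, Finsupp.neg_apply]
  exact neg_add_cancel _

theorem step (ih : SKM n) (h : Pc M) {s : ι → K} {κ L B H : Div K} {T : Set (Place K)}
    (hT : P ∉ T) (hg : Lg M κ (insert P T)) (hB : Bd1 T B) (dL : M.Dv L) (iL : IsInt L)
    (iH : IsInt H) (hs : Gn M H s)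
    (hA : M.Amp (L - κ - Finsupp.single P 1 - B - (n : ℝ) • H)) {f : K} (hf : f ∈ M.H0 (L + H)) :
    ∃ g : ι → K, (∀ i, g i ∈ M.H0 L) ∧
      f - ∑ i, s i * g i ∈ M.H0 (L + H - Finsupp.single P 1) := by
  have lM := h.loc
  have hP : M.Snc {P} := snc_mono hg.snc (by simp)
  obtain ⟨u⟩ := h.ex_sub hP
  have pP := pr_sub u.s
  have t0 : u.t ≠ 0 := fun e => by simpa [e, div_apply lM _ pP] using u.ht
  obtain ⟨k, hk⟩ := iH P
  obtain ⟨l, hl⟩ := iL P
  obtain ⟨s1, s2⟩ := hs.res h u hP hk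
  obtain ⟨⟨T', g1, g2⟩, -⟩ := (h.exs u hP).2.2.2.2.2.2 κ T B hT hg hB
  have eL : nr M P u.t L = L - (l : ℝ) • M.div u.t := by rw [nr_apply, hl]
  have eLH : nr M P u.t (L + H) = L + H - ((l + k : ℤ) : ℝ) • M.div u.t := by
    rw [nr_apply, Finsupp.add_apply, hl, hk, Int.cast_add]
  have iN : IsInt (nr M P u.t (L + H)) := eLH ▸ FI.IsInt.sub (FI.IsInt.add iL iH) (FI.IsInt.zsmul (int_div lM _) _)
  have f1 : f * u.t ^ (l + k) ∈ M.H0 (nr M P u.t (L + H)) := eLH ▸ mul_zpow_mem lM hf t0 _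
  have f2 : u.s.res (f * u.t ^ (l + k)) ∈ u.S.H0 (u.r L + u.r H) := by
    rw [← map_add]; exact u.rst.sec _ (nr_self u.ht _) _ f1
  have a1 := h.r_amp u hP hA
  have a2 : u.S.Amp (u.r L - u.r (κ + Finsupp.single P 1) - u.r B - (n : ℝ) • u.r H) := by
    refine Eq.mp (congrArg u.S.Amp ?_) a1
    simp only [map_sub, map_add, map_smul]
    abel
  obtain ⟨g', g3, g4⟩ := ih N u.L u.S (h.sub u hP) ι _ _ (u.r L) _ (u.r H) T' g1 g2 (dv_r u L)
    (gd_r lM u iL).2 (dv_r u H) (gd_r lM u iH).2 s2 a2 _ f2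
  have a3 : M.Amp (nr M P u.t L - κ - Finsupp.single P 1 - B) := by
    have := amp_div lM h.pos (amp_add_nef hA (nef_smul h.pos (hs.nef h iH) (Nat.cast_nonneg n)))
      t0 (-(l : ℝ))
    refine Eq.mp (congrArg M.Amp ?_) this
    rw [eL, neg_smul]
    abel
  have ex := fun i => tb.ext n N K M h.proj u.L u.S P u.s κ _ B T u.proj hT hg hB
    (eL ▸ dv_sub dL (dv_smul (dv_div _) _)) (eL ▸ FI.IsInt.sub iL (FI.IsInt.zsmul (int_div lM _) _))
    (nr_self u.ht L) a3 (g' i) (g3 i)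
  choose G G1 G2 using ex
  have r1 : ∀ i, s i * u.t ^ k ∈ P.ring := fun i => mem_ring_of_H0 (s1 i) pP (nr_self u.ht _)
  have r2 : ∀ i, G i ∈ P.ring := fun i => mem_ring_of_H0 (G1 i) pP (nr_self u.ht _)
  have m1 : ∀ i, s i * u.t ^ k * G i ∈ M.H0 (nr M P u.t (L + H)) := fun i => by
    rw [map_add, add_comm (nr M P u.t L)]; exact (fam_H0 M).mul (s1 i) (G1 i)
  have z1 : f * u.t ^ (l + k) - ∑ i, s i * u.t ^ k * G i ∈
      M.H0 (nr M P u.t (L + H) - Finsupp.single P 1) := by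
    have z : ExsH.rl u.rst (nr_self u.ht (L + H)) (⟨_, f1⟩ - ∑ i, ⟨_, m1 i⟩) = 0 := by
      rw [map_sub, map_sum, sub_eq_zero]
      refine Subtype.ext ?_
      rw [Submodule.coe_sum]
      refine g4.trans (Finset.sum_congr rfl fun i _ => ?_)
      rw [← G2 i, ← u.s.res_mul _ (r1 i) _ (r2 i)]
      rfl
    have z' : u.s.res _ = 0 := congrArg Subtype.val z
    rw [Submodule.coe_sub, Submodule.coe_sum] at z'
    exact (ExsH.mem_sub (s := u.s) (nr_self u.ht (L + H)) iN).2
      ⟨sub_mem f1 (sum_mem fun i _ => m1 i), z'⟩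
  refine ⟨fun i => G i * u.t ^ (-l), fun i => ?_, ?_⟩
  · have := mul_zpow_mem lM (G1 i) t0 (-l)
    rwa [eL, Int.cast_neg, neg_smul, sub_neg_eq_add, sub_add_cancel] at this
  · have := mul_zpow_mem lM z1 t0 (-(l + k))
    rw [eLH, Int.cast_neg, neg_smul, sub_neg_eq_add, sub_right_comm, sub_add_cancel] at this
    refine Eq.mp (congrArg (· ∈ _) ?_) this
    rw [sub_mul, mul_assoc, ← zpow_add₀ t0, add_neg_cancel,
      zpow_zero, mul_one, Finset.sum_mul]
    refine congrArg (f - ·) (Finset.sum_congr rfl fun i _ => ?_)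
    rw [show -l = k + -(l + k) by ring, zpow_add₀ t0]
    ring

end step

theorem skm_succ (ih : SKM n) : SKM (n + 1) := by
  classical
  intro N K _ _ M h ι _ s κ L B H T hg hB dL iL dH iH hs hA f hf
  have lM := h.loc
  obtain ⟨c, f₀, e1, f0, k1, k2, k3⟩ := (tb.bert (n + 1) N K M h.proj T H (Finset.univ.image s)
    hg.fin hg.snc dH iH (fun a ha => by
      obtain ⟨i, -, rfl⟩ := Finset.mem_image.1 ha; exact hs.1 i) fun x => by
      obtain ⟨i, a, b⟩ := hs.2 x
      exact ⟨s i, Finset.mem_image_of_mem _ (Finset.mem_univ i), a, b⟩).exists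
  have sp : f₀ ∈ Submodule.span ℂ (range s) := e1 ▸ sum_mem fun a _ => by
    rw [← Algebra.smul_def]
    obtain ⟨i, -, hi⟩ := Finset.mem_image.1 a.2
    exact Submodule.smul_mem _ _ (Submodule.subset_span ⟨i, hi⟩)
  obtain ⟨c', hc'⟩ := (Submodule.mem_span_range_iff_exists_fun ℂ).1 sp
  have hf₀ : f₀ ∈ M.H0 H := hc' ▸ sum_mem fun i _ =>
    ((M.H0 H).restrictScalars ℂ).smul_mem _ (hs.1 i)
  have dE : M.Dv (M.div f₀ + H) := dv_add (dv_div _) dH
  have nE := div_add_nonneg lM dH hf₀ f0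
  have iE := FI.IsInt.add (int_div lM f₀) iH
  set E := M.div f₀ + H with hE
  have oE : ∀ P ∈ E.support, E P = 1 := fun P hP => by
    have h1 : 0 ≤ E P := nE P
    have h2 := k1 P
    have h3 := Finsupp.mem_support_iff.1 hP
    obtain ⟨k, hk⟩ := iE P
    rw [hk] at h1 h2 h3 ⊢
    have h1 : 0 ≤ k := by exact_mod_cast h1
    have h2 : k ≤ 1 := by exact_mod_cast h2
    have h3 : k ≠ 0 := by exact_mod_cast h3
    exact_mod_cast (by omega : k = 1)
  have eE : E = ∑ P ∈ E.support, Finsupp.single P (1 : ℝ) := by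
    conv_lhs => rw [← E.sum_single, Finsupp.sum]
    exact Finset.sum_congr rfl fun P hP => by rw [oE P hP]
  have nT : ∀ P ∈ E.support, P ∉ T := fun P hP hT => Finsupp.mem_support_iff.1 hP (k2 P hT)
  have sa : ∀ (Y : Finset (Place K)) Q, (∑ P ∈ Y, Finsupp.single P (1 : ℝ)) Q =
      if Q ∈ Y then 1 else 0 := fun Y Q => by
    rw [Finsupp.finset_sum_apply]
    simp only [Finsupp.single_apply]
    rw [Finset.sum_ite_eq']
  -- `Y` is the set of the components that are still to be removed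
  have key : ∀ Y : Finset (Place K), Y ⊆ E.support → ∀ f ∈ M.H0
      (L - M.div f₀ + ∑ P ∈ Y, Finsupp.single P (1 : ℝ)),
      ∃ g : ι → K, (∀ i, g i ∈ M.H0 L) ∧ f = ∑ i, s i * g i := fun Y => by
    induction Y using Finset.induction_on with
    | empty =>
      intro _ f hf
      have := mul_mem_sub lM hf (inv_ne_zero f0)
      rw [Finset.sum_empty, add_zero, div_inv lM, sub_neg_eq_add, sub_add_cancel] at this
      refine ⟨fun i => c' i • (f * f₀⁻¹), fun i =>
        ((M.H0 L).restrictScalars ℂ).smul_mem _ this, ?_⟩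
      simp only [← smul_mul_assoc (c' _) (s _), mul_smul_comm (c' _) (s _)]
      rw [← Finset.sum_mul, hc', mul_comm f, mul_inv_cancel_left₀ f0]
    | insert P Y hP ih' =>
      intro hY f hf
      have hY' : Y ⊆ E.support := (Finset.subset_insert _ _).trans hY
      have hPE := hY (Finset.mem_insert_self _ _)
      set S := ∑ Q ∈ Y, Finsupp.single Q (1 : ℝ) with hS
      rw [Finset.sum_insert hP] at hf
      have e2 : L - M.div f₀ + (Finsupp.single P 1 + S) =
          L - E + (Finsupp.single P 1 + S) + H := by rw [hE]; abel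
      have le : L - E + (Finsupp.single P 1 + S) ≤ L := fun Q => by
        have := sa (insert P Y) Q
        rw [Finset.sum_insert hP] at this
        rw [Finsupp.add_apply, this, Finsupp.sub_apply]
        split_ifs with hQ
        · rw [oE Q (hY hQ)]; linarith
        · linarith [show 0 ≤ E Q from nE Q]
      obtain ⟨g, g1, g2⟩ := step (P := P) (T := T ∪ Y) (B := B + S)
        (L := L - E + (Finsupp.single P 1 + S)) ih h
        (fun k => k.elim (nT P hPE) hP)
        ⟨hg.can, (hg.fin.union Y.finite_toSet).insert P, snc_mono k3 (insert_subset (Or.inr hPE)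
          (union_subset_union_right _ hY'))⟩
        ⟨fun Q hQ => by
          by_contra k
          refine Finsupp.mem_support_iff.1 hQ ?_
          rw [Finsupp.add_apply, sa, if_neg fun k' : Q ∈ Y => k (Or.inr k'), add_zero]
          exact Finsupp.notMem_support_iff.1 fun k' => k (Or.inl (hB.1 k')), fun Q => by
          rw [Finsupp.add_apply, sa]
          split_ifs with hQ
          · rw [Finsupp.notMem_support_iff.1 fun k' => nT Q (hY' hQ) (hB.1 k')]; norm_num
          · simpa using hB.2 Q⟩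
        (dv_add (dv_sub dL dE) (dv_add (dv_single (dE P hPE) 1)
          (dv_sum _ fun Q hQ => dv_single (dE Q (hY' hQ)) 1)))
        (FI.IsInt.add (FI.IsInt.sub iL iE) (FI.IsInt.add (FI.IsInt.single P)
          (FI.IsInt.sum _ fun Q _ => FI.IsInt.single Q))) iH hs
        (by
          refine Eq.mp (congrArg M.Amp ?_) (amp_div lM h.pos hA f0 (-1))
          rw [hE, Nat.cast_succ, add_smul, one_smul, neg_smul, one_smul]
          abel) (e2 ▸ hf)
      obtain ⟨g', g3, g4⟩ := ih' hY' _ (Eq.mp (congrArg (fun D => _ ∈ M.H0 D)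
        (by rw [hE]; abel)) g2)
      refine ⟨fun i => g i + g' i, fun i => add_mem (H0_mono le (g1 i)) (g3 i), ?_⟩
      simp only [mul_add, Finset.sum_add_distrib]
      rw [← g4, add_sub_cancel]
  refine key E.support subset_rfl f ?_
  rw [← eE, hE]
  exact Eq.mp (congrArg (fun D => f ∈ M.H0 D) (by abel)) hf

/-- **Division by a free system.** -/
theorem skm : ∀ n, SKM n
  | 0 => skm_zero
  | n + 1 => skm_succ (skm n)

end Vale.Agent.P287D.Rl
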