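import Vale.Agent.P287D.Rl.Rel
import Vale.Agent.P287D.Rl.Skm
import Vale.Agent.P287D.Ba.Nb
import Vale.Agent.P287D.Ba.Cn

/-!
# P287D, block RL: the division theorem for b-divisors
-/

set_option linter.all false

open Set Filter Topology
open Vale.Agent.P297 (Place)
open Vale.Agent.P277Z Vale.Agent.P277Z.FI

noncomputable section

namespace Vale.Agent.P287D.Rl

open Ba hiding Div Mod

section

variable {n : ℕ} {K : Type} [Field K] [Algebra ℂ K] {M : Mdl n 0 K} {B : P277Z.Div K}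
  {T : Set (Place K)}

/-- rounding up -/
def ce (D : P277Z.Div K) : P277Z.Div K := D.mapRange (fun r => (⌈r⌉ : ℝ)) (by simp)

theorem ce_apply (D : P277Z.Div K) (P : Place K) : ce D P = ⌈D P⌉ := rfl

theorem ce_int (D : P277Z.Div K) : IsInt (ce D) := fun _ => ⟨_, rfl⟩

/-- log smooth pairs with coefficients at most one are log canonical -/
theorem lc_snc (hM : M.Proj) (hT : M.Snc T) (hB : F5.Bd1 T B) (R : Pl K) :
    bar M B R ≤ cn K n R - bar M (KM M) R + 1 := by
  obtain ⟨M', ⟨m⟩, h1, h2⟩ := Bm.plm1 hM R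
  have k := F5.LrH.lc box (hloc hM) (hloc h1) (hbir hM h1 m) hT hB (KM_can hM) (KM_can h1) R.toPlace
  rwa [← disc_mod hM h1 h2, ← bar_pr h1 h2, bar_pull hM h1 m] at k

/-- log smooth pairs with coefficients less than one are klt -/
theorem klt_snc (hM : M.Proj) (hT : M.Snc T) (h1 : (B.support : Set (Place K)) ⊆ T)
    (h2 : ∀ Q, B Q < 1) (R : Pl K) : bar M B R < cn K n R - bar M (KM M) R + 1 := by
  classical
  obtain ⟨c, c0, c1, c2⟩ : ∃ c : ℝ, 0 < c ∧ c < 1 ∧ ∀ Q ∈ B.support, B Q ≤ c := by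
    have a : ∀ᶠ c : ℝ in 𝓝[<] 1, 0 < c ∧ c < 1 ∧ ∀ Q ∈ B.support, B Q ≤ c :=
      (eventually_nhdsWithin_of_eventually_nhds (lt_mem_nhds one_pos)).and
        (eventually_mem_nhdsWithin.and ((eventually_all_finset _).2 fun Q _ =>
          eventually_nhdsWithin_of_eventually_nhds (le_mem_nhds (h2 Q))))
    exact a.exists
  set B₁ : P277Z.Div K := Finsupp.indicator B.support fun _ _ => 1
  have e : ∀ Q, B₁ Q = if Q ∈ B.support then 1 else 0 := fun Q => by
    simp [B₁, Finsupp.indicator_apply]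
  have k := lc_snc hM hT (B := B₁) ⟨fun Q hQ => h1 (by
    by_contra a
    exact Finsupp.mem_support_iff.1 hQ (by rw [e]; exact if_neg a)), fun Q => by
      rw [e]; split_ifs <;> simp⟩ R
  have k1 := bar_mono hM (D := B) (E := c • B₁) (fun Q => by
    rw [Finsupp.smul_apply, e]
    split_ifs with a
    · simpa using c2 Q a
    · simp [Finsupp.notMem_support_iff.1 a]) R
  have k2 : 0 ≤ cn K n R - bar M (KM M) R := disc_nonneg hM R
  rw [map_smul, Pi.smul_apply, smul_eq_mul] at k1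
  nlinarith

end

/-- **SKO** -/
theorem sko : SKO := by
  classical
  intro n K _ _ hK Γ s f hs nΓ bΓ hf
  obtain ⟨M₀, hM₀⟩ := Bm.exists_mdl hK
  obtain ⟨M, -, U, X, E, hM, fU, sU, -, -, -, hB, dX, eX, sX, -, dE, E0, sE, hA⟩ :=
    Nb.nb hM₀ nΓ bΓ (B := {mx s}) (finite_singleton _) (fun β h => h ▸ mx_mem_Car s)
      (T := ∅) finite_empty (T' := ∅) finite_empty
  obtain ⟨H, dH, eH, -, iH, -⟩ := hB _ rfl
  have iH := iH (mx_mem_CarZ s)
  set B := ce X - X with hB
  have B0 : ∀ Q, 0 ≤ B Q := fun Q => sub_nonneg.2 (Int.le_ceil _)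
  have B1 : ∀ Q, B Q < 1 := fun Q => sub_lt_iff_lt_add'.2 (Int.ceil_lt_add_one _)
  have z : ∀ Q, X Q = 0 → ce X Q = 0 := fun Q h => by rw [ce_apply, h]; simp
  have sB : (B.support : Set (Place K)) ⊆ U := fun Q hQ => sX (by
    by_contra k
    have k' : X Q = 0 := Finsupp.notMem_support_iff.1 k
    exact Finsupp.mem_support_iff.1 hQ (by rw [hB, Finsupp.sub_apply, z Q k', k', sub_zero]))
  have dC : M.Dv (ce X) := dv_iff.2 fun Q hQ => z Q (dv_iff.1 dX Q hQ)
  obtain ⟨ε, e0, e1, e2⟩ : ∃ ε : ℝ, 0 < ε ∧ ε ≤ 1 ∧ ∀ Q ∈ E.support, B Q + ε * E Q ≤ 1 := by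
    have a : ∀ᶠ ε : ℝ in 𝓝[>] 0, 0 < ε ∧ ε ≤ 1 ∧ ∀ Q ∈ E.support, B Q + ε * E Q ≤ 1 :=
      eventually_mem_nhdsWithin.and (eventually_nhdsWithin_of_eventually_nhds
        ((ge_mem_nhds one_pos).and ((eventually_all_finset _).2 fun Q _ =>
          (ContinuousAt.eventually_lt (f := fun ε : ℝ => B Q + ε * E Q) (g := fun _ => 1)
            (by fun_prop) continuousAt_const (by simpa using B1 Q)).mono fun _ => le_of_lt)))
    exact a.exists
  obtain ⟨g, g1, g2⟩ := skm n 0 K M (pc hM) s (fun a => a) (KM M)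
    (KM M + ce X + (n : ℝ) • H) (B + ε • E) H U ⟨KM_isCan hM, fU, sU⟩
    ⟨fun Q hQ => by
      by_contra k
      refine Finsupp.mem_support_iff.1 hQ ?_
      rw [Finsupp.add_apply, Finsupp.smul_apply, Finsupp.notMem_support_iff.1 fun k' => k (sB k'),
        Finsupp.notMem_support_iff.1 fun k' => k (sE k'), smul_zero, add_zero], fun Q => by
      rw [Finsupp.add_apply, Finsupp.smul_apply, smul_eq_mul]
      refine ⟨add_nonneg (B0 Q) (mul_nonneg e0.le (E0 Q)), ?_⟩
      by_cases k : Q ∈ E.support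
      · exact e2 Q k
      · rw [Finsupp.notMem_support_iff.1 k, mul_zero, add_zero]; exact (B1 Q).le⟩
    (dv_add (dv_add (KM_dv hM) dC) (FI.dv_smul dH _))
    (FI.IsInt.add (FI.IsInt.add (KM_int hM) (ce_int X)) (FI.IsInt.nsmul iH n)) dH iH
    ⟨fun a => (sec_bar hM).1 (eH ▸ P287D.sec_of_mem a.2), fun x =>
      let ⟨a, h1, h2⟩ := Nb.free_of_mx hM dH hs eH x
      ⟨⟨a, h1⟩, h2⟩⟩
    (Eq.mp (congrArg M.Amp (by rw [hB]; abel)) (hA ε e0 e1)) f
    (or_iff_not_imp_left.2 fun f0 => (forall_pr hM).2 fun P hP => by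
      have k := (hf P).resolve_left f0
      obtain ⟨a, ha⟩ := KM_int hM P.toPlace
      obtain ⟨b, hb⟩ := iH P.toPlace
      have k1 : Γ P = -X P.toPlace := by rw [← bar_pr hM hP, ← eX, Pi.neg_apply, neg_neg]
      simp only [dsc, Pi.sub_apply, Pi.smul_apply, smul_eq_mul, eH, bar_pr hM hP, KM_pr hM hP, k1,
        ha, hb] at k
      simp only [Finsupp.add_apply, Finsupp.smul_apply, smul_eq_mul, ce_apply, ha, hb]
      have k2 : ((-1 - a - (n + 1) * b - P.ord f : ℤ) : ℝ) < X P.toPlace := by push_cast; linarith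
      have k3 : (0 : ℤ) ≤ P.ord f + (a + ⌈X P.toPlace⌉ + n * b + b) := by
        have := Int.lt_ceil.2 k2
        linarith
      exact_mod_cast k3)
  refine ⟨fun a => if h : a ∈ s then g ⟨a, h⟩ else 0, ?_, fun a P => ?_⟩
  · rw [g2, ← Finset.sum_coe_sort s]
    exact Finset.sum_congr rfl fun a _ => by simp only [dif_pos a.2]
  · dsimp only
    split_ifs with h
    swap
    · exact Or.inl rfl
    refine (Ba.sec_of_mem hM (g1 ⟨a, h⟩)).imp_right fun k => ?_
    have k1 := k P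
    have k2 := klt_snc hM sU sB B1 P
    have k3 : Γ P = -bar M X P := by rw [← eX, Pi.neg_apply, neg_neg]
    simp only [hB, map_add, map_sub, map_smul, dv, Pi.add_apply, Pi.sub_apply, Pi.smul_apply,
      Pi.zero_apply, smul_eq_mul] at k1 k2
    simp only [dsc, Pi.sub_apply, Pi.smul_apply, smul_eq_mul, eH, k3]
    linarith

/-- **REL** -/
theorem rel (hR : RES) : REL := rel_of sko hR

end Vale.Agent.P287D.Rl
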