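import Vale.Agent.P287D.Ku.St

/-!
# P287D, block RL: division by a linear system, relative models (statements)
-/

noncomputable section

namespace Vale.Agent.P287D

/-- **SKO**: division of adjoint sections by the system `s` -/
def SKO : Prop := ForK fun n K _ _ => ∀ (Γ : BD K) (s : Finset K) (f : K), (∃ a ∈ s, a ≠ 0) →
  Nef (-Γ) → Big (-Γ) → (∀ P, Aj n (Γ - ((n : ℝ) + 1) • mx s) P f) →
  ∃ g : K → K, f = ∑ a ∈ s, a * g a ∧ ∀ a P, Aj n (Γ - (n : ℝ) • mx s) P (g a)

/-- **REL**: the system `s` descends to the model of an adjoint class that contains it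
`dim + 1` times -/
def REL : Prop := ForS fun n K _ _ => ∀ (Λ D Γ N : BD K) (s : Finset K), Smp Λ → Big Λ → CarQ D →
  Dsc Λ D → Klt (n + 1) Γ → Bdy n Λ Γ → Dsc Λ (mx s) → Nef (D - Γ - ((n : ℝ) + 2) • mx s) →
  Big (D - Γ - ((n : ℝ) + 2) • mx s) → ZD D N → CarQ N → Dsc (D - N) (mx s)

end Vale.Agent.P287D
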